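import Mathlib

/-!
# One-dimensional Prekopa-Leindler inequality with a general weight

`pl_weighted`: for `0 < lam < 1` and measurable `f g h : ℝ → ℝ≥0∞` with
`f x ^ (1 - lam) * g y ^ lam ≤ h ((1 - lam) * x + lam * y)` for all `x y`, one has
`(∫⁻ f) ^ (1 - lam) * (∫⁻ g) ^ lam ≤ ∫⁻ h`.

`pl_mul`: the multiplicative form on `(0, ∞)`, obtained by the substitution `t = exp x`.

Proof of `pl_weighted`: one-dimensional Brunn-Minkowski (compact sets, then measurable sets
by inner regularity), layer cake for functions with supremum one, weighted AM-GM, rescaling,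
truncation.  Adapted from the midpoint version `Vale/Agent/Lib/P074/helper23/PL1D.lean`.
-/

open MeasureTheory Set
open scoped ENNReal

namespace Vale.Agent.Lib.P227

namespace PLw

/-- One-dimensional Brunn-Minkowski for compact sets (weighted form). -/
theorem bm_compact (lam : ℝ) (h0 : 0 < lam) (h1 : lam < 1) {A B C : Set ℝ}
    (hA : IsCompact A) (hB : IsCompact B) (hAne : A.Nonempty) (hBne : B.Nonempty)
    (H : ∀ a ∈ A, ∀ b ∈ B, (1 - lam) * a + lam * b ∈ C) :
    ENNReal.ofReal (1 - lam) * volume A + ENNReal.ofReal lam * volume B ≤ volume C := by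
  have h1' : 0 < 1 - lam := by linarith
  set a₁ := sSup A with ha₁
  set b₀ := sInf B with hb₀
  have ha₁A : a₁ ∈ A := hA.sSup_mem hAne
  have hb₀B : b₀ ∈ B := hB.sInf_mem hBne
  have hAle : ∀ a ∈ A, a ≤ a₁ := fun a ha => le_csSup hA.bddAbove ha
  have hBge : ∀ b ∈ B, b₀ ≤ b := fun b hb => csInf_le hB.bddBelow hb
  set m := (1 - lam) * a₁ + lam * b₀ with hm
  set S₁ : Set ℝ :=
    (fun z => (1 - lam)⁻¹ * z) ⁻¹' ((fun w => w + (-(lam * b₀ / (1 - lam)))) ⁻¹' A) with hS₁
  set S₂ : Set ℝ :=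
    (fun z => lam⁻¹ * z) ⁻¹' ((fun w => w + (-((1 - lam) * a₁ / lam))) ⁻¹' B) with hS₂
  have hvol1 : volume S₁ = ENNReal.ofReal (1 - lam) * volume A := by
    rw [hS₁, Real.volume_preimage_mul_left (inv_ne_zero h1'.ne'),
      measure_preimage_add_right, inv_inv, abs_of_pos h1']
  have hvol2 : volume S₂ = ENNReal.ofReal lam * volume B := by
    rw [hS₂, Real.volume_preimage_mul_left (inv_ne_zero h0.ne'),
      measure_preimage_add_right, inv_inv, abs_of_pos h0]
  have hS₁C : S₁ ⊆ C ∩ Iic m := by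
    intro z hz
    have hz' : (1 - lam)⁻¹ * z + -(lam * b₀ / (1 - lam)) ∈ A := hz
    have h3 : (1 - lam) * ((1 - lam)⁻¹ * z + -(lam * b₀ / (1 - lam))) = z - lam * b₀ := by
      field_simp; ring
    refine ⟨?_, ?_⟩
    · have := H _ hz' _ hb₀B
      rw [h3] at this
      convert this using 1; ring
    · have := hAle _ hz'
      have h2 : (1 - lam) * ((1 - lam)⁻¹ * z + -(lam * b₀ / (1 - lam))) ≤ (1 - lam) * a₁ :=
        mul_le_mul_of_nonneg_left this h1'.le
      simp only [mem_Iic, hm]; linarith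
  have hS₂C : S₂ \ {m} ⊆ C \ Iic m := by
    intro z hz
    obtain ⟨hz1, hz2⟩ := hz
    have hz' : lam⁻¹ * z + -((1 - lam) * a₁ / lam) ∈ B := hz1
    have h3 : lam * (lam⁻¹ * z + -((1 - lam) * a₁ / lam)) = z - (1 - lam) * a₁ := by
      field_simp; ring
    refine ⟨?_, ?_⟩
    · have := H _ ha₁A _ hz'
      rw [h3] at this
      convert this using 1; ring
    · have h4 := hBge _ hz'
      have h2 : lam * b₀ ≤ lam * (lam⁻¹ * z + -((1 - lam) * a₁ / lam)) :=
        mul_le_mul_of_nonneg_left h4 h0.le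
      simp only [mem_Iic, not_le]
      have hne : z ≠ m := by simpa using hz2
      rcases lt_or_gt_of_ne hne with h | h
      · exfalso; rw [hm] at h; linarith
      · exact h
  have e1 : volume S₁ ≤ volume (C ∩ Iic m) := measure_mono hS₁C
  have e2 : volume S₂ ≤ volume (C \ Iic m) := by
    calc volume S₂ ≤ volume ((S₂ \ {m}) ∪ {m}) :=
          measure_mono (by intro z hz; by_cases h : z = m <;> simp [h, hz])
      _ ≤ volume (S₂ \ {m}) + volume ({m} : Set ℝ) := measure_union_le _ _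
      _ = volume (S₂ \ {m}) := by simp
      _ ≤ volume (C \ Iic m) := measure_mono hS₂C
  have e3 : volume (C ∩ Iic m) + volume (C \ Iic m) = volume C :=
    measure_inter_add_sdiff C measurableSet_Iic
  calc ENNReal.ofReal (1 - lam) * volume A + ENNReal.ofReal lam * volume B
      = volume S₁ + volume S₂ := by rw [hvol1, hvol2]
    _ ≤ volume (C ∩ Iic m) + volume (C \ Iic m) := add_le_add e1 e2
    _ = volume C := e3

/-- One-dimensional Brunn-Minkowski for measurable sets (weighted form). -/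
theorem bm_meas (lam : ℝ) (h0 : 0 < lam) (h1 : lam < 1) {A B C : Set ℝ}
    (hA : MeasurableSet A) (hB : MeasurableSet B) (hAne : A.Nonempty) (hBne : B.Nonempty)
    (H : ∀ a ∈ A, ∀ b ∈ B, (1 - lam) * a + lam * b ∈ C) :
    ENNReal.ofReal (1 - lam) * volume A + ENNReal.ofReal lam * volume B ≤ volume C := by
  obtain ⟨a₀, ha₀⟩ := hAne
  obtain ⟨b₁, hb₁⟩ := hBne
  have key : ∀ (K : {K : Set ℝ // K ⊆ A ∧ IsCompact K})
      (K' : {K : Set ℝ // K ⊆ B ∧ IsCompact K}),
      ENNReal.ofReal (1 - lam) * volume K.1 + ENNReal.ofReal lam * volume K'.1 ≤ volume C := by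
    intro K K'
    have e1 : volume K.1 ≤ volume (K.1 ∪ {a₀}) := measure_mono subset_union_left
    have e2 : volume K'.1 ≤ volume (K'.1 ∪ {b₁}) := measure_mono subset_union_left
    have e3 := bm_compact lam h0 h1 (A := K.1 ∪ {a₀}) (B := K'.1 ∪ {b₁}) (C := C)
      (K.2.2.union isCompact_singleton) (K'.2.2.union isCompact_singleton)
      ⟨a₀, by simp⟩ ⟨b₁, by simp⟩
      (by
        intro a ha b hb
        apply H
        · rcases ha with ha | ha
          · exact K.2.1 ha
          · rw [mem_singleton_iff.1 ha]; exact ha₀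
        · rcases hb with hb | hb
          · exact K'.2.1 hb
          · rw [mem_singleton_iff.1 hb]; exact hb₁)
    exact (add_le_add (mul_le_mul_right e1 _) (mul_le_mul_right e2 _)).trans e3
  have hA' : volume A = ⨆ K : {K : Set ℝ // K ⊆ A ∧ IsCompact K}, volume K.1 := by
    rw [hA.measure_eq_iSup_isCompact]
    apply le_antisymm
    · refine iSup_le fun K => iSup_le fun hK => iSup_le fun hK' => ?_
      exact le_iSup (fun K : {K : Set ℝ // K ⊆ A ∧ IsCompact K} => volume K.1) ⟨K, hK, hK'⟩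
    · refine iSup_le fun K => ?_
      exact le_iSup_of_le K.1 (le_iSup_of_le K.2.1 (le_iSup_of_le K.2.2 le_rfl))
  have hB' : volume B = ⨆ K : {K : Set ℝ // K ⊆ B ∧ IsCompact K}, volume K.1 := by
    rw [hB.measure_eq_iSup_isCompact]
    apply le_antisymm
    · refine iSup_le fun K => iSup_le fun hK => iSup_le fun hK' => ?_
      exact le_iSup (fun K : {K : Set ℝ // K ⊆ B ∧ IsCompact K} => volume K.1) ⟨K, hK, hK'⟩
    · refine iSup_le fun K => ?_
      exact le_iSup_of_le K.1 (le_iSup_of_le K.2.1 (le_iSup_of_le K.2.2 le_rfl))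
  have : Nonempty {K : Set ℝ // K ⊆ A ∧ IsCompact K} :=
    ⟨⟨∅, empty_subset _, isCompact_empty⟩⟩
  have : Nonempty {K : Set ℝ // K ⊆ B ∧ IsCompact K} :=
    ⟨⟨∅, empty_subset _, isCompact_empty⟩⟩
  rw [hA', hB', ENNReal.mul_iSup, ENNReal.mul_iSup]
  exact ENNReal.iSup_add_iSup_le key

/-- Layer-cake step: functions with values in `[0,1]` and supremum one. -/
theorem pl_unit (lam : ℝ) (h0 : 0 < lam) (h1 : lam < 1) (F G Hh : ℝ → ℝ)
    (hF : Measurable F) (hG : Measurable G) (hH : Measurable Hh)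
    (F0 : ∀ x, 0 ≤ F x) (G0 : ∀ x, 0 ≤ G x) (H0 : ∀ x, 0 ≤ Hh x)
    (F1 : ∀ x, F x ≤ 1) (G1 : ∀ x, G x ≤ 1)
    (Fsup : ∀ t : ℝ, t < 1 → ∃ x, t < F x) (Gsup : ∀ t : ℝ, t < 1 → ∃ x, t < G x)
    (H : ∀ x y, F x ^ (1 - lam) * G y ^ lam ≤ Hh ((1 - lam) * x + lam * y)) :
    ENNReal.ofReal (1 - lam) * (∫⁻ x, ENNReal.ofReal (F x))
        + ENNReal.ofReal lam * (∫⁻ x, ENNReal.ofReal (G x))
      ≤ ∫⁻ x, ENNReal.ofReal (Hh x) := by
  have h1' : 0 < 1 - lam := by linarith
  rw [lintegral_eq_lintegral_meas_lt volume (Filter.Eventually.of_forall F0) hF.aemeasurable,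
    lintegral_eq_lintegral_meas_lt volume (Filter.Eventually.of_forall G0) hG.aemeasurable,
    lintegral_eq_lintegral_meas_lt volume (Filter.Eventually.of_forall H0) hH.aemeasurable]
  calc ENNReal.ofReal (1 - lam) * (∫⁻ t in Ioi (0:ℝ), volume {a | t < F a})
        + ENNReal.ofReal lam * ∫⁻ t in Ioi (0:ℝ), volume {a | t < G a}
      = (∫⁻ t in Ioi (0:ℝ), ENNReal.ofReal (1 - lam) * volume {a | t < F a})
        + ∫⁻ t in Ioi (0:ℝ), ENNReal.ofReal lam * volume {a | t < G a} := by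
        rw [lintegral_const_mul' _ _ ENNReal.ofReal_ne_top,
          lintegral_const_mul' _ _ ENNReal.ofReal_ne_top]
    _ ≤ ∫⁻ t in Ioi (0:ℝ), (ENNReal.ofReal (1 - lam) * volume {a | t < F a}
          + ENNReal.ofReal lam * volume {a | t < G a}) :=
        le_lintegral_add _ _
    _ ≤ ∫⁻ t in Ioi (0:ℝ), volume {a | t < Hh a} := by
        refine setLIntegral_mono' measurableSet_Ioi (fun t ht => ?_)
        have ht0 : (0:ℝ) < t := ht
        by_cases ht1 : t < 1
        · refine bm_meas lam h0 h1 (measurableSet_lt measurable_const hF)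
            (measurableSet_lt measurable_const hG) (Fsup t ht1) (Gsup t ht1) ?_
          intro a ha b hb
          have ha' : t < F a := ha
          have hb' : t < G b := hb
          show t < Hh ((1 - lam) * a + lam * b)
          have e1 : t ^ (1 - lam) < F a ^ (1 - lam) := Real.rpow_lt_rpow ht0.le ha' h1'
          have e2 : t ^ lam < G b ^ lam := Real.rpow_lt_rpow ht0.le hb' h0
          have e3 : t ^ (1 - lam) * t ^ lam = t := by
            rw [← Real.rpow_add ht0]; simp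
          have e4 : t ^ (1 - lam) * t ^ lam < F a ^ (1 - lam) * G b ^ lam :=
            mul_lt_mul'' e1 e2 (Real.rpow_nonneg ht0.le _) (Real.rpow_nonneg ht0.le _)
          linarith [H a b]
        · push Not at ht1
          have hFe : {a | t < F a} = ∅ := by
            ext a
            simp only [mem_ofPred_eq, mem_empty_iff_false, iff_false, not_lt]
            exact (F1 a).trans ht1
          have hGe : {a | t < G a} = ∅ := by
            ext a
            simp only [mem_ofPred_eq, mem_empty_iff_false, iff_false, not_lt]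
            exact (G1 a).trans ht1
          rw [hFe, hGe]; simp

/-- Weighted AM-GM in the extended nonnegative reals. -/
theorem amgm (lam : ℝ) (h0 : 0 < lam) (h1 : lam < 1) (u v : ℝ≥0∞) :
    u ^ (1 - lam) * v ^ lam ≤ ENNReal.ofReal (1 - lam) * u + ENNReal.ofReal lam * v := by
  have h1' : 0 < 1 - lam := by linarith
  by_cases hu : u = ∞
  · subst hu
    rw [ENNReal.mul_top (by simpa using h1')]
    simp
  by_cases hv : v = ∞
  · subst hv
    rw [ENNReal.mul_top (by simpa using h0)]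
    simp
  lift u to NNReal using hu
  lift v to NNReal using hv
  have key := NNReal.geom_mean_le_arith_mean2_weighted (1 - lam).toNNReal lam.toNNReal u v
    (by rw [← Real.toNNReal_add h1'.le h0.le]; simp)
  rw [Real.coe_toNNReal _ h1'.le, Real.coe_toNNReal _ h0.le] at key
  rw [← ENNReal.coe_rpow_of_nonneg _ h1'.le, ← ENNReal.coe_rpow_of_nonneg _ h0.le]
  show _ ≤ ((1 - lam).toNNReal : ℝ≥0∞) * u + (lam.toNNReal : ℝ≥0∞) * v
  exact_mod_cast key

/-- The bounded case. -/
theorem pl_bdd (lam : ℝ) (h0 : 0 < lam) (h1 : lam < 1) (f g h : ℝ → ℝ≥0∞)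
    (hf : Measurable f) (hg : Measurable g) (hh : Measurable h)
    (H : ∀ x y, f x ^ (1 - lam) * g y ^ lam ≤ h ((1 - lam) * x + lam * y))
    (Mf Mg : ℝ≥0∞) (hMf : Mf ≠ ∞) (hMg : Mg ≠ ∞) (hfM : ∀ x, f x ≤ Mf) (hgM : ∀ x, g x ≤ Mg) :
    (∫⁻ x, f x) ^ (1 - lam) * (∫⁻ x, g x) ^ lam ≤ ∫⁻ x, h x := by
  have h1' : 0 < 1 - lam := by linarith
  set a := ⨆ x, f x with ha
  set b := ⨆ x, g x with hb
  have ha_top : a ≠ ∞ := ne_top_of_le_ne_top hMf (iSup_le hfM)
  have hb_top : b ≠ ∞ := ne_top_of_le_ne_top hMg (iSup_le hgM)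
  have hfa : ∀ x, f x ≤ a := fun x => le_iSup f x
  have hgb : ∀ x, g x ≤ b := fun x => le_iSup g x
  by_cases ha0 : a = 0
  · have : ∀ x, f x = 0 := fun x => le_antisymm (ha0 ▸ hfa x) zero_le
    simp [this, ENNReal.zero_rpow_of_pos h1']
  by_cases hb0 : b = 0
  · have : ∀ x, g x = 0 := fun x => le_antisymm (hb0 ▸ hgb x) zero_le
    simp [this, ENNReal.zero_rpow_of_pos h0]
  have hf_top : ∀ x, f x ≠ ∞ := fun x => ne_top_of_le_ne_top ha_top (hfa x)
  have hg_top : ∀ x, g x ≠ ∞ := fun x => ne_top_of_le_ne_top hb_top (hgb x)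
  set a' := a.toReal with ha'
  set b' := b.toReal with hb'
  have ha'pos : 0 < a' := ENNReal.toReal_pos ha0 ha_top
  have hb'pos : 0 < b' := ENNReal.toReal_pos hb0 hb_top
  set c := a' ^ (1 - lam) * b' ^ lam with hc
  have hcpos : 0 < c := mul_pos (Real.rpow_pos_of_pos ha'pos _) (Real.rpow_pos_of_pos hb'pos _)
  have hcE : ENNReal.ofReal c = a ^ (1 - lam) * b ^ lam := by
    rw [hc, ENNReal.ofReal_mul (Real.rpow_nonneg ha'pos.le _),
      ← ENNReal.ofReal_rpow_of_pos ha'pos, ← ENNReal.ofReal_rpow_of_pos hb'pos,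
      ENNReal.ofReal_toReal ha_top, ENNReal.ofReal_toReal hb_top]
  set h' : ℝ → ℝ≥0∞ := fun x => min (h x) (ENNReal.ofReal c) with hh'
  have hh'_top : ∀ x, h' x ≠ ∞ := fun x =>
    ne_top_of_le_ne_top ENNReal.ofReal_ne_top (min_le_right _ _)
  have hh'meas : Measurable h' := hh.min measurable_const
  have H' : ∀ x y, f x ^ (1 - lam) * g y ^ lam ≤ h' ((1 - lam) * x + lam * y) := by
    intro x y
    rcases le_total (h ((1 - lam) * x + lam * y)) (ENNReal.ofReal c) with e | e
    · simp only [hh', min_eq_left e]; exact H x y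
    · simp only [hh', min_eq_right e]; rw [hcE]
      exact mul_le_mul' (ENNReal.rpow_le_rpow (hfa x) h1'.le)
        (ENNReal.rpow_le_rpow (hgb y) h0.le)
  set F : ℝ → ℝ := fun x => (f x).toReal / a' with hF
  set G : ℝ → ℝ := fun x => (g x).toReal / b' with hG
  set Hh : ℝ → ℝ := fun x => (h' x).toReal / c with hHh
  have Fsup : ∀ t : ℝ, t < 1 → ∃ x, t < F x := by
    intro t ht
    have hlt : ENNReal.ofReal (t * a') < a := by
      rcases le_or_gt 0 t with e0 | e0
      · rw [ENNReal.ofReal_lt_iff_lt_toReal (mul_nonneg e0 ha'pos.le) ha_top]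
        nlinarith
      · rw [ENNReal.ofReal_of_nonpos (by nlinarith)]
        exact pos_iff_ne_zero.2 ha0
    obtain ⟨x, hx⟩ := lt_iSup_iff.1 hlt
    refine ⟨x, ?_⟩
    simp only [hF]
    rw [lt_div_iff₀ ha'pos]
    rcases le_or_gt 0 (t * a') with e0 | e0
    · exact (ENNReal.ofReal_lt_iff_lt_toReal e0 (hf_top x)).1 hx
    · exact lt_of_lt_of_le e0 ENNReal.toReal_nonneg
  have Gsup : ∀ t : ℝ, t < 1 → ∃ x, t < G x := by
    intro t ht
    have hlt : ENNReal.ofReal (t * b') < b := by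
      rcases le_or_gt 0 t with e0 | e0
      · rw [ENNReal.ofReal_lt_iff_lt_toReal (mul_nonneg e0 hb'pos.le) hb_top]
        nlinarith
      · rw [ENNReal.ofReal_of_nonpos (by nlinarith)]
        exact pos_iff_ne_zero.2 hb0
    obtain ⟨x, hx⟩ := lt_iSup_iff.1 hlt
    refine ⟨x, ?_⟩
    simp only [hG]
    rw [lt_div_iff₀ hb'pos]
    rcases le_or_gt 0 (t * b') with e0 | e0
    · exact (ENNReal.ofReal_lt_iff_lt_toReal e0 (hg_top x)).1 hx
    · exact lt_of_lt_of_le e0 ENNReal.toReal_nonneg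
  have key := pl_unit lam h0 h1 F G Hh (hf.ennreal_toReal.div_const _)
    (hg.ennreal_toReal.div_const _) (hh'meas.ennreal_toReal.div_const _)
    (fun x => div_nonneg ENNReal.toReal_nonneg ha'pos.le)
    (fun x => div_nonneg ENNReal.toReal_nonneg hb'pos.le)
    (fun x => div_nonneg ENNReal.toReal_nonneg hcpos.le)
    (fun x => by
      simp only [hF]; rw [div_le_one ha'pos]; exact ENNReal.toReal_mono ha_top (hfa x))
    (fun x => by
      simp only [hG]; rw [div_le_one hb'pos]; exact ENNReal.toReal_mono hb_top (hgb x))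
    Fsup Gsup
    (by
      intro x y
      simp only [hF, hG, hHh]
      have e1 : (f x).toReal ^ (1 - lam) * (g y).toReal ^ lam
          ≤ (h' ((1 - lam) * x + lam * y)).toReal := by
        rw [ENNReal.toReal_rpow, ENNReal.toReal_rpow, ← ENNReal.toReal_mul]
        exact ENNReal.toReal_mono (hh'_top _) (H' x y)
      rw [Real.div_rpow ENNReal.toReal_nonneg ha'pos.le,
        Real.div_rpow ENNReal.toReal_nonneg hb'pos.le, div_mul_div_comm]
      exact div_le_div_of_nonneg_right e1 hcpos.le)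
  have hfint : ∫⁻ x, f x = a * ∫⁻ x, ENNReal.ofReal (F x) := by
    rw [← lintegral_const_mul' a _ ha_top]
    congr 1; ext x
    simp only [hF]
    rw [ENNReal.ofReal_div_of_pos ha'pos, ENNReal.ofReal_toReal (hf_top x),
      ENNReal.ofReal_toReal ha_top, ENNReal.mul_div_cancel ha0 ha_top]
  have hgint : ∫⁻ x, g x = b * ∫⁻ x, ENNReal.ofReal (G x) := by
    rw [← lintegral_const_mul' b _ hb_top]
    congr 1; ext x
    simp only [hG]
    rw [ENNReal.ofReal_div_of_pos hb'pos, ENNReal.ofReal_toReal (hg_top x),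
      ENNReal.ofReal_toReal hb_top, ENNReal.mul_div_cancel hb0 hb_top]
  have hhint : ENNReal.ofReal c * ∫⁻ x, ENNReal.ofReal (Hh x) ≤ ∫⁻ x, h x := by
    rw [← lintegral_const_mul' _ _ ENNReal.ofReal_ne_top]
    refine lintegral_mono (fun x => ?_)
    simp only [hHh]
    rw [ENNReal.ofReal_div_of_pos hcpos, ENNReal.ofReal_toReal (hh'_top x),
      ENNReal.mul_div_cancel (by simpa using hcpos) ENNReal.ofReal_ne_top]
    exact min_le_left _ _
  calc (∫⁻ x, f x) ^ (1 - lam) * (∫⁻ x, g x) ^ lam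
      = (a ^ (1 - lam) * b ^ lam) * ((∫⁻ x, ENNReal.ofReal (F x)) ^ (1 - lam)
          * (∫⁻ x, ENNReal.ofReal (G x)) ^ lam) := by
        rw [hfint, hgint, ENNReal.mul_rpow_of_nonneg _ _ h1'.le,
          ENNReal.mul_rpow_of_nonneg _ _ h0.le]; ring
    _ ≤ (a ^ (1 - lam) * b ^ lam) * (ENNReal.ofReal (1 - lam) * (∫⁻ x, ENNReal.ofReal (F x))
          + ENNReal.ofReal lam * ∫⁻ x, ENNReal.ofReal (G x)) := by
        gcongr; exact amgm lam h0 h1 _ _
    _ ≤ (a ^ (1 - lam) * b ^ lam) * ∫⁻ x, ENNReal.ofReal (Hh x) := by gcongr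
    _ = ENNReal.ofReal c * ∫⁻ x, ENNReal.ofReal (Hh x) := by rw [hcE]
    _ ≤ ∫⁻ x, h x := hhint

theorem iSup_min_nat (a : ℝ≥0∞) : ⨆ n : ℕ, min a (n : ℝ≥0∞) = a := by
  apply le_antisymm
  · exact iSup_le fun n => min_le_left _ _
  · by_cases ha : a = ∞
    · subst ha
      simp only [min_eq_right le_top]
      rw [ENNReal.iSup_natCast]
    · obtain ⟨n, hn⟩ := ENNReal.exists_nat_gt ha
      exact le_iSup_of_le n (by rw [min_eq_left hn.le])

end PLw

/-- One-dimensional Prekopa-Leindler inequality with a general weight `lam ∈ (0, 1)`. -/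
theorem pl_weighted (lam : ℝ) (h0 : 0 < lam) (h1 : lam < 1) (f g h : ℝ → ℝ≥0∞)
    (hf : Measurable f) (hg : Measurable g) (hh : Measurable h)
    (H : ∀ x y, f x ^ (1 - lam) * g y ^ lam ≤ h ((1 - lam) * x + lam * y)) :
    (∫⁻ x, f x) ^ (1 - lam) * (∫⁻ x, g x) ^ lam ≤ ∫⁻ x, h x := by
  have h1' : 0 < 1 - lam := by linarith
  have trunc : ∀ u : ℝ → ℝ≥0∞, Measurable u →
      ∫⁻ x, u x = ⨆ n : ℕ, ∫⁻ x, min (u x) (n : ℝ≥0∞) := by
    intro u hu
    rw [← lintegral_iSup (fun n => hu.min measurable_const)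
      (fun n m hnm x => min_le_min le_rfl (by exact_mod_cast hnm))]
    congr 1; ext x
    exact (PLw.iSup_min_nat (u x)).symm
  have rpow_iSup : ∀ (y : ℝ) (_ : 0 < y) (u : ℕ → ℝ≥0∞),
      (⨆ n, u n) ^ y = ⨆ n, u n ^ y := by
    intro y hy u
    exact (ENNReal.orderIsoRpow y hy).map_iSup u
  rw [trunc f hf, trunc g hg, rpow_iSup _ h1', rpow_iSup _ h0, ENNReal.iSup_mul]
  refine iSup_le fun n => ?_
  rw [ENNReal.mul_iSup]
  refine iSup_le fun m => ?_
  exact PLw.pl_bdd lam h0 h1 _ _ h (hf.min measurable_const) (hg.min measurable_const) hh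
    (fun x y => (mul_le_mul' (ENNReal.rpow_le_rpow (min_le_left _ _) h1'.le)
      (ENNReal.rpow_le_rpow (min_le_left _ _) h0.le)).trans (H x y))
    n m (ENNReal.natCast_ne_top n) (ENNReal.natCast_ne_top m)
    (fun x => min_le_right _ _) (fun x => min_le_right _ _)

/-- Multiplicative form of the one-dimensional Prekopa-Leindler inequality on `(0, ∞)`. -/
theorem pl_mul (lam : ℝ) (h0 : 0 < lam) (h1 : lam < 1) (F G H : ℝ → ℝ≥0∞)
    (hF : Measurable F) (hG : Measurable G) (hH : Measurable H)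
    (hFGH : ∀ t s : ℝ, 0 < t → 0 < s →
      F t ^ (1 - lam) * G s ^ lam ≤ H (t ^ (1 - lam) * s ^ lam)) :
    (∫⁻ t in Ioi (0:ℝ), F t) ^ (1 - lam) * (∫⁻ s in Ioi (0:ℝ), G s) ^ lam
      ≤ ∫⁻ r in Ioi (0:ℝ), H r := by
  have h1' : 0 < 1 - lam := by linarith
  have cov : ∀ U : ℝ → ℝ≥0∞,
      ∫⁻ t in Ioi (0:ℝ), U t = ∫⁻ x, ENNReal.ofReal (Real.exp x) * U (Real.exp x) := by
    intro U
    have e := lintegral_image_eq_lintegral_abs_deriv_mul (s := univ) (f := Real.exp)
      (f' := Real.exp) MeasurableSet.univ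
      (fun x _ => (Real.hasDerivAt_exp x).hasDerivWithinAt) Real.exp_injective.injOn U
    rw [image_univ, Real.range_exp, Measure.restrict_univ] at e
    rw [e]
    congr 1; ext x; rw [abs_of_pos (Real.exp_pos x)]
  have meas : ∀ U : ℝ → ℝ≥0∞, Measurable U →
      Measurable (fun x => ENNReal.ofReal (Real.exp x) * U (Real.exp x)) := by
    intro U hU
    exact (ENNReal.measurable_ofReal.comp Real.measurable_exp).mul (hU.comp Real.measurable_exp)
  rw [cov F, cov G, cov H]
  refine pl_weighted lam h0 h1 _ _ _ (meas F hF) (meas G hG) (meas H hH) ?_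
  intro x y
  have e : Real.exp ((1 - lam) * x + lam * y) = Real.exp x ^ (1 - lam) * Real.exp y ^ lam := by
    rw [Real.exp_add, ← Real.exp_mul, ← Real.exp_mul, mul_comm x, mul_comm y]
  rw [e, ENNReal.mul_rpow_of_nonneg _ _ h1'.le, ENNReal.mul_rpow_of_nonneg _ _ h0.le,
    ENNReal.ofReal_mul (Real.rpow_nonneg (Real.exp_pos x).le _),
    ← ENNReal.ofReal_rpow_of_pos (Real.exp_pos x), ← ENNReal.ofReal_rpow_of_pos (Real.exp_pos y)]
  calc ENNReal.ofReal (Real.exp x) ^ (1 - lam) * F (Real.exp x) ^ (1 - lam)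
        * (ENNReal.ofReal (Real.exp y) ^ lam * G (Real.exp y) ^ lam)
      = (ENNReal.ofReal (Real.exp x) ^ (1 - lam) * ENNReal.ofReal (Real.exp y) ^ lam)
        * (F (Real.exp x) ^ (1 - lam) * G (Real.exp y) ^ lam) := by ring
    _ ≤ (ENNReal.ofReal (Real.exp x) ^ (1 - lam) * ENNReal.ofReal (Real.exp y) ^ lam)
        * H (Real.exp x ^ (1 - lam) * Real.exp y ^ lam) := by
        gcongr; exact hFGH _ _ (Real.exp_pos x) (Real.exp_pos y)

end Vale.Agent.Lib.P227
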